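import Crest.Agent.R163.Q3.D.R1.S0
import Crest.Agent.R163.Q3.D.R1.H

set_option autoImplicit false
set_option maxRecDepth 100000
set_option linter.all false
set_option Elab.async false

namespace Crest.Agent.R163.R1

theorem p0_2_28 : Ok2 par f2 ((((((((Box3.unit.r 0).r 1).r 0).r 1).r 0).r 1).r 0).l 1) (selB2 0 (selB2 0 (selB2 0 (selB2 0 (selB2 0 C0 3099604620133629951) 16777984) 4325377) 395) 30734) :=
  Ok2.run hw hf2 ⟨465,19,19,13,13⟩ 58
    (.part 183 (.chk false 0) (.split 2 (.chk false 0) (.split 0 (.chk false 0) (.split 1 (.chk false 0) (.chk false 0)))))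
    (by decide +kernel)

theorem p0_2_29 : Ok2 par f2 ((((((((Box3.unit.r 0).r 1).r 0).r 1).r 0).r 1).r 0).r 1) (selB2 0 (selB2 0 (selB2 0 (selB2 0 (selB2 0 C0 3099604620133629951) 16777984) 4325377) 395) 30734) :=
  Ok2.run hw hf2 ⟨449,19,19,13,13⟩ 58
    (.part 251 (.chk false 0) (.split 0 (.chk false 0) (.split 1 (.chk false 0) (.chk false 0))))
    (by decide +kernel)

theorem p0_2_30 : Ok2 par f2 (((((((Box3.unit.r 0).r 1).r 0).r 1).r 0).r 1).l 0) (selB2 0 (selB2 0 (selB2 0 (selB2 0 (selB2 0 C0 3099604620133629951) 16777984) 4325377) 395) 30734) :=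
  Ok2.run hw hf2 ⟨392,19,19,13,13⟩ 58
    (.chk false 0)
    (by decide +kernel)

theorem p0_2_31 : Ok2 par f2 ((((((Box3.unit.r 0).r 1).r 0).r 1).r 0).r 1) (selB2 1 (selB2 0 (selB2 0 (selB2 0 (selB2 0 C0 3099604620133629951) 16777984) 4325377) 395) 30734) :=
  Ok2.run hw hf2 ⟨375,19,19,13,13⟩ 58
    (.chk false 2048)
    (by decide +kernel)

theorem p0_2_32 : Ok2 par f2 (((((Box3.unit.r 0).r 1).r 0).r 1).l 0) (selB2 0 (selB2 0 (selB2 0 (selB2 0 C0 3099604620133629951) 16777984) 4325377) 395) :=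
  Ok2.run hw hf2 ⟨351,19,19,13,13⟩ 58
    (.chk false 2048)
    (by decide +kernel)

theorem p0_2_33 : Ok2 par f2 ((((Box3.unit.r 0).r 1).r 0).r 1) (selB2 1 (selB2 0 (selB2 0 (selB2 0 C0 3099604620133629951) 16777984) 4325377) 395) :=
  Ok2.run hw hf2 ⟨335,19,19,13,13⟩ 58
    (.chk false 1024)
    (by decide +kernel)

theorem p0_2_34 : Ok2 par f2 (((Box3.unit.r 0).r 1).l 0) (selB2 0 (selB2 0 (selB2 0 C0 3099604620133629951) 16777984) 4325377) :=
  Ok2.run hw hf2 ⟨305,19,19,13,13⟩ 58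
    (.chk false 2048)
    (by decide +kernel)

theorem p0_2_35 : Ok2 par f2 ((Box3.unit.r 0).r 1) (selB2 1 (selB2 0 (selB2 0 C0 3099604620133629951) 16777984) 4325377) :=
  Ok2.run hw hf2 ⟨291,19,19,13,13⟩ 58
    (.chk false 512)
    (by decide +kernel)

theorem p0_2_36 : Ok2 par f2 (Box3.unit.r 0) (selB2 1 (selB2 0 C0 3099604620133629951) 16777984) :=
  Ok2.run hw hf2 ⟨263,19,19,13,13⟩ 58
    (.chk false 0)
    (by decide +kernel)

theorem p0_2_37 : Ok2 par f2 Box3.unit (selB2 1 C0 3099604620133629951) :=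
  Ok2.run hw hf2 ⟨234,19,19,13,13⟩ 58
    (.chk false 2048)
    (by decide +kernel)

theorem p0_3_0 : Ok2 par f3 ((((Box3.unit.r 1).r 0).r 1).l 0) (selB2 1 (selB2 0 C0 4323455549933879295) 21) :=
  Ok2.run hw hf3 ⟨328,19,19,16,13⟩ 58
    (.chk false 0)
    (by decide +kernel)

theorem p0_3_1 : Ok2 par f3 ((((Box3.unit.r 1).r 0).r 1).l 0) (selB2 0 (selB2 0 C0 4323455549933879295) 21) :=
  Ok2.run hw hf3 ⟨428,19,19,16,13⟩ 58
    (.split 1 (.chk false 0) (.split 0 (.chk false 0) (.split 2 (.part 1 (.chk false 0) (.split 1 (.chk false 0) (.split 0 (.chk false 0) (.chk false 0)))) (.chk false 0))))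
    (by decide +kernel)

theorem p0_3_2 : Ok2 par f3 ((((((((Box3.unit.r 1).r 0).r 1).r 0).r 1).l 0).r 1).l 0) (selB2 0 (selB2 0 (selB2 0 C0 4323455549933879295) 1) 3) :=
  Ok2.run hw hf3 ⟨485,19,19,16,13⟩ 58
    (.split 2 (.part 1 (.chk false 0) (.split 1 (.chk false 0) (.split 2 (.split 0 (.chk false 0) (.chk false 0)) (.chk false 0)))) (.chk false 0))
    (by decide +kernel)

theorem p0_3_3 : Ok2 par f3 ((((((((Box3.unit.r 1).r 0).r 1).r 0).r 1).l 0).r 1).r 0) (selB2 0 (selB2 0 (selB2 0 C0 4323455549933879295) 1) 3) :=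
  Ok2.run hw hf3 ⟨411,19,19,16,13⟩ 58
    (.chk false 0)
    (by decide +kernel)

theorem p0_3_4 : Ok2 par f3 (((((((Box3.unit.r 1).r 0).r 1).r 0).r 1).l 0).l 1) (selB2 0 (selB2 0 (selB2 0 C0 4323455549933879295) 1) 3) :=
  Ok2.run hw hf3 ⟨390,19,19,16,13⟩ 58
    (.chk false 0)
    (by decide +kernel)

theorem p0_3_5 : Ok2 par f3 ((((((Box3.unit.r 1).r 0).r 1).r 0).r 1).l 0) (selB2 1 (selB2 0 (selB2 0 C0 4323455549933879295) 1) 3) :=
  Ok2.run hw hf3 ⟨373,19,19,16,13⟩ 58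
    (.chk false 0)
    (by decide +kernel)

theorem p0_3_6 : Ok2 par f3 ((((((Box3.unit.r 1).r 0).r 1).r 0).r 1).r 0) (selB2 0 (selB2 0 C0 4323455549933879295) 1) :=
  Ok2.run hw hf3 ⟨377,19,19,16,13⟩ 58
    (.chk false 0)
    (by decide +kernel)

theorem p0_3_7 : Ok2 par f3 (((((Box3.unit.r 1).r 0).r 1).r 0).l 1) (selB2 0 (selB2 0 C0 4323455549933879295) 1) :=
  Ok2.run hw hf3 ⟨353,19,19,16,13⟩ 58
    (.chk false 0)
    (by decide +kernel)

theorem p0_3_8 : Ok2 par f3 ((((Box3.unit.r 1).r 0).r 1).r 0) (selB2 1 (selB2 0 C0 4323455549933879295) 1) :=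
  Ok2.run hw hf3 ⟨337,19,19,16,13⟩ 58
    (.chk false 0)
    (by decide +kernel)

theorem p0_3_9 : Ok2 par f3 (((Box3.unit.r 1).r 0).l 1) (selB2 0 C0 4323455549933879295) :=
  Ok2.run hw hf3 ⟨306,19,19,16,13⟩ 58
    (.chk false 0)
    (by decide +kernel)

theorem p0_3_10 : Ok2 par f3 ((Box3.unit.r 1).l 0) (selB2 0 C0 4323455549933879295) :=
  Ok2.run hw hf3 ⟨337,19,19,16,13⟩ 58
    (.part 30 (.chk false 0) (.split 1 (.chk false 0) (.split 0 (.chk false 0) (.chk false 0))))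
    (by decide +kernel)

theorem p0_3_11 : Ok2 par f3 (Box3.unit.l 1) (selB2 0 C0 4323455549933879295) :=
  Ok2.run hw hf3 ⟨264,19,19,16,13⟩ 58
    (.chk false 0)
    (by decide +kernel)

theorem p0_3_12 : Ok2 par f3 Box3.unit (selB2 1 C0 4323455549933879295) :=
  Ok2.run hw hf3 ⟨236,19,19,16,13⟩ 58
    (.chk false 2048)
    (by decide +kernel)

theorem p0_4_0 : Ok2 par f4 (((((((Box3.unit.r 0).r 1).r 0).r 1).r 2).r 0).l 2) (selB2 0 (selB2 0 (selB2 0 C0 4611686018254372863) 9) 2) :=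
  Ok2.run hw hf4 ⟨382,19,19,13,13⟩ 58
    (.chk false 0)
    (by decide +kernel)

theorem p0_4_1 : Ok2 par f4 (((((((Box3.unit.r 0).r 1).r 0).r 1).r 2).r 0).r 2) (selB2 0 (selB2 0 (selB2 0 C0 4611686018254372863) 9) 2) :=
  Ok2.run hw hf4 ⟨504,19,19,13,13⟩ 58
    (.split 1 (.chk false 0) (.split 0 (.chk false 0) (.split 2 (.chk false 0) (.split 1 (.split 0 (.chk false 0) (.split 2 (.chk false 0) (.split 1 (.chk false 0) (.chk false 0)))) (.chk false 0)))))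
    (by decide +kernel)

theorem p0_4_2 : Ok2 par f4 ((((((Box3.unit.r 0).r 1).r 0).r 1).r 2).l 0) (selB2 0 (selB2 0 (selB2 0 C0 4611686018254372863) 9) 2) :=
  Ok2.run hw hf4 ⟨369,19,19,13,13⟩ 58
    (.chk false 0)
    (by decide +kernel)

theorem p0_4_3 : Ok2 par f4 (((((Box3.unit.r 0).r 1).r 0).r 1).l 2) (selB2 0 (selB2 0 (selB2 0 C0 4611686018254372863) 9) 2) :=
  Ok2.run hw hf4 ⟨353,19,19,13,13⟩ 58
    (.chk false 0)
    (by decide +kernel)

theorem p0_4_4 : Ok2 par f4 ((((Box3.unit.r 0).r 1).r 0).r 1) (selB2 1 (selB2 0 (selB2 0 C0 4611686018254372863) 9) 2) :=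
  Ok2.run hw hf4 ⟨335,19,19,13,13⟩ 58
    (.chk false 0)
    (by decide +kernel)

theorem p0_4_5 : Ok2 par f4 ((((Box3.unit.r 0).r 1).r 0).l 1) (selB2 0 (selB2 0 C0 4611686018254372863) 9) :=
  Ok2.run hw hf4 ⟨327,19,19,13,13⟩ 58
    (.chk false 0)
    (by decide +kernel)

theorem p0_4_6 : Ok2 par f4 (((Box3.unit.r 0).r 1).l 0) (selB2 0 (selB2 0 C0 4611686018254372863) 9) :=
  Ok2.run hw hf4 ⟨305,19,19,13,13⟩ 58
    (.chk false 0)
    (by decide +kernel)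

theorem p0_4_7 : Ok2 par f4 ((Box3.unit.r 0).r 1) (selB2 1 (selB2 0 C0 4611686018254372863) 9) :=
  Ok2.run hw hf4 ⟨291,19,19,13,13⟩ 58
    (.chk false 0)
    (by decide +kernel)

theorem p0_4_8 : Ok2 par f4 ((Box3.unit.r 0).l 1) (selB2 0 C0 4611686018254372863) :=
  Ok2.run hw hf4 ⟨291,19,19,13,13⟩ 58
    (.chk false 0)
    (by decide +kernel)

theorem p0_4_9 : Ok2 par f4 (Box3.unit.l 0) (selB2 0 C0 4611686018254372863) :=
  Ok2.run hw hf4 ⟨263,19,19,13,13⟩ 58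
    (.chk false 0)
    (by decide +kernel)

theorem p0_4_10 : Ok2 par f4 Box3.unit (selB2 1 C0 4611686018254372863) :=
  Ok2.run hw hf4 ⟨234,19,19,13,13⟩ 58
    (.chk false 2048)
    (by decide +kernel)

theorem p0_5_0 : Ok2 par f5 ((((Box3.unit.l 0).r 1).l 0).l 1) (selB2 0 (selB2 0 (selB2 0 (selB2 0 (selB2 0 C0 2811372753708384255) 7) 8069) 513) 238) :=
  Ok2.run hw hf5 ⟨326,19,19,13,13⟩ 58
    (.chk false 0)
    (by decide +kernel)

theorem p0_5_1 : Ok2 par f5 ((((Box3.unit.l 0).r 1).l 0).r 1) (selB2 0 (selB2 0 (selB2 0 (selB2 0 (selB2 0 C0 2811372753708384255) 7) 8069) 513) 238) :=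
  Ok2.run hw hf5 ⟨444,19,19,13,13⟩ 58
    (.split 1 (.chk false 0) (.split 0 (.part 3 (.chk false 0) (.split 2 (.chk false 0) (.split 2 (.chk false 0) (.split 1 (.chk false 0) (.split 0 (.chk false 0) (.chk false 0)))))) (.chk false 0)))
    (by decide +kernel)

theorem p0_5_2 : Ok2 par f5 (((Box3.unit.l 0).r 1).l 0) (selB2 1 (selB2 0 (selB2 0 (selB2 0 (selB2 0 C0 2811372753708384255) 7) 8069) 513) 238) :=
  Ok2.run hw hf5 ⟨313,19,19,13,13⟩ 58
    (.chk false 0)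
    (by decide +kernel)

theorem p0_5_3 : Ok2 par f5 (((((((Box3.unit.l 0).r 1).r 0).r 1).r 2).l 0).l 1) (selB2 0 (selB2 0 (selB2 0 (selB2 0 (selB2 0 (selB2 0 C0 2811372753708384255) 7) 8069) 513) 257) 71) :=
  Ok2.run hw hf5 ⟨380,19,19,13,13⟩ 58
    (.chk false 0)
    (by decide +kernel)

theorem p0_5_4 : Ok2 par f5 (((((((Box3.unit.l 0).r 1).r 0).r 1).r 2).l 0).r 1) (selB2 0 (selB2 0 (selB2 0 (selB2 0 (selB2 0 (selB2 0 C0 2811372753708384255) 7) 8069) 513) 257) 71) :=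
  Ok2.run hw hf5 ⟨465,19,19,13,13⟩ 58
    (.part 1 (.chk false 0) (.split 2 (.chk false 0) (.split 0 (.chk false 0) (.part 2 (.chk false 0) (.split 1 (.chk false 0) (.split 2 (.chk false 0) (.split 0 (.chk false 0) (.chk false 0))))))))
    (by decide +kernel)

theorem p0_5_5 : Ok2 par f5 ((((((Box3.unit.l 0).r 1).r 0).r 1).r 2).l 0) (selB2 1 (selB2 0 (selB2 0 (selB2 0 (selB2 0 (selB2 0 C0 2811372753708384255) 7) 8069) 513) 257) 71) :=
  Ok2.run hw hf5 ⟨364,19,19,13,13⟩ 58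
    (.chk false 0)
    (by decide +kernel)

theorem p0_5_6 : Ok2 par f5 ((((((Box3.unit.l 0).r 1).r 0).r 1).r 2).r 0) (selB2 0 (selB2 0 (selB2 0 (selB2 0 (selB2 0 C0 2811372753708384255) 7) 8069) 513) 257) :=
  Ok2.run hw hf5 ⟨431,19,19,13,13⟩ 58
    (.part 106 (.chk false 0) (.split 1 (.chk false 0) (.part 1 (.chk false 0) (.split 2 (.chk false 0) (.split 0 (.part 1 (.chk false 0) (.split 1 (.chk false 0) (.chk false 0))) (.chk false 0))))))
    (by decide +kernel)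


end Crest.Agent.R163.R1
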