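import Crest.Agent.R163.Q3.D.R1.S0
import Crest.Agent.R163.Q3.D.R1.H

set_option autoImplicit false
set_option maxRecDepth 100000
set_option linter.all false
set_option Elab.async false

namespace Crest.Agent.R163.R1

theorem p0_5_7 : Ok2 par f5 (((((Box3.unit.l 0).r 1).r 0).r 1).l 2) (selB2 0 (selB2 0 (selB2 0 (selB2 0 (selB2 0 C0 2811372753708384255) 7) 8069) 513) 257) :=
  Ok2.run hw hf5 ⟨417,19,19,13,13⟩ 58
    (.part 47 (.chk false 0) (.split 0 (.chk false 0) (.part 2 (.chk false 0) (.split 1 (.chk false 0) (.split 0 (.split 1 (.chk false 0) (.chk false 0)) (.chk false 0))))))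
    (by decide +kernel)

theorem p0_5_8 : Ok2 par f5 ((((Box3.unit.l 0).r 1).r 0).l 1) (selB2 0 (selB2 0 (selB2 0 (selB2 0 (selB2 0 C0 2811372753708384255) 7) 8069) 513) 257) :=
  Ok2.run hw hf5 ⟨318,19,19,13,13⟩ 58
    (.chk false 0)
    (by decide +kernel)

theorem p0_5_9 : Ok2 par f5 (((Box3.unit.l 0).r 1).r 0) (selB2 1 (selB2 0 (selB2 0 (selB2 0 (selB2 0 C0 2811372753708384255) 7) 8069) 513) 257) :=
  Ok2.run hw hf5 ⟨304,19,19,13,13⟩ 58
    (.chk false 0)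
    (by decide +kernel)

theorem p0_5_10 : Ok2 par f5 ((Box3.unit.l 0).r 1) (selB2 1 (selB2 0 (selB2 0 (selB2 0 C0 2811372753708384255) 7) 8069) 513) :=
  Ok2.run hw hf5 ⟨291,19,19,13,13⟩ 58
    (.chk false 0)
    (by decide +kernel)

theorem p0_5_11 : Ok2 par f5 ((Box3.unit.l 0).l 1) (selB2 0 (selB2 0 (selB2 0 C0 2811372753708384255) 7) 8069) :=
  Ok2.run hw hf5 ⟨291,19,19,13,13⟩ 58
    (.chk false 0)
    (by decide +kernel)

theorem p0_5_12 : Ok2 par f5 (Box3.unit.l 0) (selB2 1 (selB2 0 (selB2 0 C0 2811372753708384255) 7) 8069) :=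
  Ok2.run hw hf5 ⟨262,19,19,13,13⟩ 58
    (.chk false 0)
    (by decide +kernel)

theorem p0_5_13 : Ok2 par f5 (((((((Box3.unit.r 0).r 1).l 0).r 1).r 0).r 1).l 2) (selB2 0 (selB2 0 (selB2 0 (selB2 0 (selB2 0 (selB2 0 (selB2 0 C0 2811372753708384255) 7) 434186) 6464) 259) 3) 1) :=
  Ok2.run hw hf5 ⟨403,19,19,13,13⟩ 58
    (.part 3 (.chk false 0) (.split 0 (.chk false 0) (.chk false 0)))
    (by decide +kernel)

theorem p0_5_14 : Ok2 par f5 (((((((Box3.unit.r 0).r 1).l 0).r 1).r 0).r 1).r 2) (selB2 0 (selB2 0 (selB2 0 (selB2 0 (selB2 0 (selB2 0 (selB2 0 C0 2811372753708384255) 7) 434186) 6464) 259) 3) 1) :=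
  Ok2.run hw hf5 ⟨452,19,19,13,13⟩ 58
    (.split 0 (.split 1 (.chk false 0) (.split 2 (.chk false 0) (.split 0 (.chk false 0) (.chk false 0)))) (.chk false 0))
    (by decide +kernel)

theorem p0_5_15 : Ok2 par f5 ((((((Box3.unit.r 0).r 1).l 0).r 1).r 0).l 1) (selB2 0 (selB2 0 (selB2 0 (selB2 0 (selB2 0 (selB2 0 (selB2 0 C0 2811372753708384255) 7) 434186) 6464) 259) 3) 1) :=
  Ok2.run hw hf5 ⟨363,19,19,13,13⟩ 58
    (.chk false 0)
    (by decide +kernel)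

theorem p0_5_16 : Ok2 par f5 (((((Box3.unit.r 0).r 1).l 0).r 1).r 0) (selB2 1 (selB2 0 (selB2 0 (selB2 0 (selB2 0 (selB2 0 (selB2 0 C0 2811372753708384255) 7) 434186) 6464) 259) 3) 1) :=
  Ok2.run hw hf5 ⟨347,19,19,13,13⟩ 58
    (.chk false 0)
    (by decide +kernel)

theorem p0_5_17 : Ok2 par f5 (((((Box3.unit.r 0).r 1).l 0).r 1).l 0) (selB2 0 (selB2 0 (selB2 0 (selB2 0 (selB2 0 (selB2 0 C0 2811372753708384255) 7) 434186) 6464) 259) 3) :=
  Ok2.run hw hf5 ⟨435,19,19,13,13⟩ 58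
    (.part 12 (.chk false 0) (.split 1 (.chk false 0) (.part 1 (.chk false 0) (.split 0 (.chk false 0) (.split 1 (.chk false 0) (.split 2 (.split 0 (.chk false 0) (.chk false 0)) (.chk false 0)))))))
    (by decide +kernel)

theorem p0_5_18 : Ok2 par f5 ((((Box3.unit.r 0).r 1).l 0).r 1) (selB2 1 (selB2 0 (selB2 0 (selB2 0 (selB2 0 (selB2 0 C0 2811372753708384255) 7) 434186) 6464) 259) 3) :=
  Ok2.run hw hf5 ⟨326,19,19,13,13⟩ 58
    (.chk false 0)
    (by decide +kernel)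

theorem p0_5_19 : Ok2 par f5 ((((Box3.unit.r 0).r 1).l 0).l 1) (selB2 0 (selB2 0 (selB2 0 (selB2 0 (selB2 0 C0 2811372753708384255) 7) 434186) 6464) 259) :=
  Ok2.run hw hf5 ⟨318,19,19,13,13⟩ 58
    (.chk false 0)
    (by decide +kernel)

theorem p0_5_20 : Ok2 par f5 (((Box3.unit.r 0).r 1).l 0) (selB2 1 (selB2 0 (selB2 0 (selB2 0 (selB2 0 C0 2811372753708384255) 7) 434186) 6464) 259) :=
  Ok2.run hw hf5 ⟨304,19,19,13,13⟩ 58
    (.chk false 0)
    (by decide +kernel)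

theorem p0_5_21 : Ok2 par f5 (((Box3.unit.r 0).r 1).r 0) (selB2 0 (selB2 0 (selB2 0 (selB2 0 C0 2811372753708384255) 7) 434186) 6464) :=
  Ok2.run hw hf5 ⟨335,19,19,13,13⟩ 58
    (.part 287 (.chk false 0) (.split 1 (.chk false 0) (.chk false 0)))
    (by decide +kernel)

theorem p0_5_22 : Ok2 par f5 ((Box3.unit.r 0).r 1) (selB2 1 (selB2 0 (selB2 0 (selB2 0 C0 2811372753708384255) 7) 434186) 6464) :=
  Ok2.run hw hf5 ⟨291,19,19,13,13⟩ 58
    (.chk false 0)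
    (by decide +kernel)

theorem p0_5_23 : Ok2 par f5 ((Box3.unit.r 0).l 1) (selB2 0 (selB2 0 (selB2 0 C0 2811372753708384255) 7) 434186) :=
  Ok2.run hw hf5 ⟨291,19,19,13,13⟩ 58
    (.chk false 0)
    (by decide +kernel)

theorem p0_5_24 : Ok2 par f5 (Box3.unit.r 0) (selB2 1 (selB2 0 (selB2 0 C0 2811372753708384255) 7) 434186) :=
  Ok2.run hw hf5 ⟨262,19,19,13,13⟩ 58
    (.chk false 0)
    (by decide +kernel)

theorem p0_5_25 : Ok2 par f5 Box3.unit (selB2 1 (selB2 0 C0 2811372753708384255) 7) :=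
  Ok2.run hw hf5 ⟨277,25,25,13,13⟩ 58
    (.chk true 0)
    (by decide +kernel)

theorem p0_5_26 : Ok2 par f5 Box3.unit (selB2 1 C0 2811372753708384255) :=
  Ok2.run hw hf5 ⟨234,19,19,13,13⟩ 58
    (.chk false 1024)
    (by decide +kernel)

theorem p0_6_0 : Ok2 par f6 Box3.unit (selB2 1 C0 4611686017544486911) :=
  Ok2.run hw hf6 ⟨238,19,19,13,13⟩ 58
    (.chk false 512)
    (by decide +kernel)

theorem p0_6_1 : Ok2 par f6 Box3.unit (selB2 0 C0 4611686017544486911) :=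
  Ok2.run hw hf6 ⟨287,25,25,13,13⟩ 58
    (.chk true 0)
    (by decide +kernel)

theorem p0_7_0 : Ok2 par f7 ((Box3.unit.l 0).l 1) (selB2 1 (selB2 0 (selB2 0 (selB2 0 (selB2 0 C0 4610594065054443519) 7295) 10) 4) 3) :=
  Ok2.run hw hf7 ⟨371,25,25,13,13⟩ 58
    (.chk true 0)
    (by decide +kernel)

theorem p0_7_1 : Ok2 par f7 ((Box3.unit.l 0).l 1) (selB2 0 (selB2 0 (selB2 0 (selB2 0 (selB2 0 C0 4610594065054443519) 7295) 10) 4) 3) :=
  Ok2.run hw hf7 ⟨365,19,19,13,13⟩ 58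
    (.split 0 (.split 1 (.chk false 0) (.part 29 (.chk false 0) (.split 0 (.chk false 0) (.chk false 0)))) (.chk false 0))
    (by decide +kernel)

theorem p0_7_2 : Ok2 par f7 ((Box3.unit.l 0).l 1) (selB2 1 (selB2 0 (selB2 0 (selB2 0 C0 4610594065054443519) 7295) 10) 4) :=
  Ok2.run hw hf7 ⟨310,19,19,13,13⟩ 58
    (.chk false 0)
    (by decide +kernel)

theorem p0_7_3 : Ok2 par f7 (((Box3.unit.l 0).r 1).l 0) (selB2 0 (selB2 0 (selB2 0 (selB2 0 C0 4610594065054443519) 7295) 10) 236) :=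
  Ok2.run hw hf7 ⟨399,25,25,13,13⟩ 58
    (.part 3 (.chk true 0) (.split 0 (.split 1 (.chk false 0) (.chk false 0)) (.chk false 0)))
    (by decide +kernel)

theorem p0_7_4 : Ok2 par f7 (((Box3.unit.l 0).r 1).r 0) (selB2 0 (selB2 0 (selB2 0 (selB2 0 C0 4610594065054443519) 7295) 10) 236) :=
  Ok2.run hw hf7 ⟨418,25,25,13,13⟩ 58
    (.part 4 (.chk false 0) (.split 1 (.chk true 0) (.chk true 0)))
    (by decide +kernel)

theorem p0_7_5 : Ok2 par f7 ((Box3.unit.l 0).r 1) (selB2 1 (selB2 0 (selB2 0 (selB2 0 C0 4610594065054443519) 7295) 10) 236) :=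
  Ok2.run hw hf7 ⟨310,19,19,13,13⟩ 58
    (.chk false 0)
    (by decide +kernel)

theorem p0_7_6 : Ok2 par f7 (Box3.unit.l 0) (selB2 1 (selB2 0 (selB2 0 C0 4610594065054443519) 7295) 10) :=
  Ok2.run hw hf7 ⟨281,19,19,13,13⟩ 58
    (.chk false 0)
    (by decide +kernel)

theorem p0_7_7 : Ok2 par f7 (Box3.unit.r 0) (selB2 0 (selB2 0 C0 4610594065054443519) 7295) :=
  Ok2.run hw hf7 ⟨371,25,25,13,13⟩ 58
    (.part 1018 (.chk false 0) (.split 1 (.chk true 0) (.chk true 0)))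
    (by decide +kernel)

theorem p0_7_8 : Ok2 par f7 Box3.unit (selB2 1 (selB2 0 C0 4610594065054443519) 7295) :=
  Ok2.run hw hf7 ⟨302,25,25,13,13⟩ 58
    (.chk true 0)
    (by decide +kernel)

theorem p0_7_9 : Ok2 par f7 Box3.unit (selB2 1 C0 4610594065054443519) :=
  Ok2.run hw hf7 ⟨253,19,19,13,13⟩ 58
    (.chk false 0)
    (by decide +kernel)


end Crest.Agent.R163.R1
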