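import Crest.Agent.R163.Q3.D.R1.P0_0
import Crest.Agent.R163.Q3.D.R1.P0_1
import Crest.Agent.R163.Q3.D.R1.P0_2

set_option autoImplicit false
set_option maxRecDepth 100000
set_option linter.all false
set_option Elab.async false

namespace Crest.Agent.R163.R1

theorem o0_7 : Ok2 par f7 Box3.unit C0 :=
  (Ok2.part 4610594065054443519 p0_7_9 (Ok2.part 7295 p0_7_8 (Ok2.split 0 (Ok2.part 10 p0_7_6 (Ok2.split 1 (Ok2.part 4 p0_7_2 (Ok2.part 3 p0_7_0 p0_7_1)) (Ok2.part 236 p0_7_5 (Ok2.split 0 p0_7_3 p0_7_4)))) p0_7_7)))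
theorem o0_6 : Ok2 par f6 Box3.unit C0 :=
  (Ok2.part 4611686017544486911 p0_6_0 p0_6_1)
theorem o0_5 : Ok2 par f5 Box3.unit C0 :=
  (Ok2.part 2811372753708384255 p0_5_26 (Ok2.part 7 p0_5_25 (Ok2.split 0 (Ok2.part 8069 p0_5_12 (Ok2.split 1 p0_5_11 (Ok2.part 513 p0_5_10 (Ok2.split 0 (Ok2.part 238 p0_5_2 (Ok2.split 1 p0_5_0 p0_5_1)) (Ok2.part 257 p0_5_9 (Ok2.split 1 p0_5_8 (Ok2.split 2 p0_5_7 (Ok2.split 0 (Ok2.part 71 p0_5_5 (Ok2.split 1 p0_5_3 p0_5_4)) p0_5_6)))))))) (Ok2.part 434186 p0_5_24 (Ok2.split 1 p0_5_23 (Ok2.part 6464 p0_5_22 (Ok2.split 0 (Ok2.part 259 p0_5_20 (Ok2.split 1 p0_5_19 (Ok2.part 3 p0_5_18 (Ok2.split 0 p0_5_17 (Ok2.part 1 p0_5_16 (Ok2.split 1 p0_5_15 (Ok2.split 2 p0_5_13 p0_5_14))))))) p0_5_21)))))))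
theorem o0_4 : Ok2 par f4 Box3.unit C0 :=
  (Ok2.part 4611686018254372863 p0_4_10 (Ok2.split 0 p0_4_9 (Ok2.split 1 p0_4_8 (Ok2.part 9 p0_4_7 (Ok2.split 0 p0_4_6 (Ok2.split 1 p0_4_5 (Ok2.part 2 p0_4_4 (Ok2.split 2 p0_4_3 (Ok2.split 0 p0_4_2 (Ok2.split 2 p0_4_0 p0_4_1))))))))))
theorem o0_3 : Ok2 par f3 Box3.unit C0 :=
  (Ok2.part 4323455549933879295 p0_3_12 (Ok2.split 1 p0_3_11 (Ok2.split 0 p0_3_10 (Ok2.split 1 p0_3_9 (Ok2.split 0 (Ok2.part 21 p0_3_0 p0_3_1) (Ok2.part 1 p0_3_8 (Ok2.split 1 p0_3_7 (Ok2.split 0 (Ok2.part 3 p0_3_5 (Ok2.split 1 p0_3_4 (Ok2.split 0 p0_3_2 p0_3_3))) p0_3_6))))))))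
theorem o0_2 : Ok2 par f2 Box3.unit C0 :=
  (Ok2.part 3099604620133629951 p0_2_37 (Ok2.split 0 (Ok2.part 50330879 p0_2_5 (Ok2.split 2 p0_2_4 (Ok2.split 1 (Ok2.split 0 (Ok2.part 5 p0_2_0 p0_2_1) p0_2_2) p0_2_3))) (Ok2.part 16777984 p0_2_36 (Ok2.split 1 (Ok2.part 3931903 p0_2_12 (Ok2.split 1 p0_2_11 (Ok2.split 2 (Ok2.split 1 p0_2_8 (Ok2.part 4 p0_2_6 p0_2_7)) (Ok2.part 3 p0_2_9 p0_2_10)))) (Ok2.part 4325377 p0_2_35 (Ok2.split 0 p0_2_34 (Ok2.split 1 (Ok2.part 524149 p0_2_22 (Ok2.split 1 p0_2_21 (Ok2.split 0 p0_2_20 (Ok2.split 1 p0_2_19 (Ok2.part 12 p0_2_18 (Ok2.split 0 p0_2_17 (Ok2.split 0 p0_2_16 (Ok2.split 1 p0_2_15 (Ok2.split 2 p0_2_13 p0_2_14))))))))) (Ok2.part 395 p0_2_33 (Ok2.split 0 p0_2_32 (Ok2.split 1 (Ok2.part 16443 p0_2_27 (Ok2.split 0 p0_2_26 (Ok2.split 1 p0_2_25 (Ok2.part 367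 p0_2_23 p0_2_24)))) (Ok2.part 30734 p0_2_31 (Ok2.split 0 p0_2_30 (Ok2.split 1 p0_2_28 p0_2_29)))))))))))))
theorem o0_1 : Ok2 par f1 Box3.unit C0 :=
  (Ok2.part 4323455642275676159 p0_1_0 p0_1_1)
theorem o0_0 : Ok2 par f0 Box3.unit C0 :=
  p0_0_0

theorem pt0 : PtAll2 par C0 :=
  PtAll2.of_okD hw (OkD2.cover [f0.dom,f1.dom,f2.dom,f3.dom,f4.dom,f5.dom,f6.dom,f7.dom]
    (.split 0 (.leaf 0) (.split 1 (.split 0 (.leaf 1) (.leaf 2)) (.split 0 (.leaf 3) (.split 1 (.leaf 4) (.split 0 (.leaf 5) (.split 1 (.leaf 6) (.leaf 7)))))))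
    (by decide +kernel)
    (List.forall_mem_cons.2 ⟨OkD2.of_ok o0_0, (List.forall_mem_cons.2 ⟨OkD2.of_ok o0_1, (List.forall_mem_cons.2 ⟨OkD2.of_ok o0_2, (List.forall_mem_cons.2 ⟨OkD2.of_ok o0_3, (List.forall_mem_cons.2 ⟨OkD2.of_ok o0_4, (List.forall_mem_cons.2 ⟨OkD2.of_ok o0_5, (List.forall_mem_cons.2 ⟨OkD2.of_ok o0_6, (List.forall_mem_cons.2 ⟨OkD2.of_ok o0_7, (fun _ h => nomatch h)⟩)⟩)⟩)⟩)⟩)⟩)⟩)⟩))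

end Crest.Agent.R163.R1
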