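import Crest.Agent.R163.Q3.D.R1.S0
import Crest.Agent.R163.Q3.D.R1.H

set_option autoImplicit false
set_option maxRecDepth 100000
set_option linter.all false
set_option Elab.async false

namespace Crest.Agent.R163.R1

theorem p0_0_0 : Ok2 par f0 Box3.unit C0 :=
  Ok2.run hw hf0 ⟨233,19,19,13,13⟩ 58
    (.chk false 2048)
    (by decide +kernel)

theorem p0_1_0 : Ok2 par f1 Box3.unit (selB2 1 C0 4323455642275676159) :=
  Ok2.run hw hf1 ⟨236,19,19,16,13⟩ 58
    (.chk false 2048)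
    (by decide +kernel)

theorem p0_1_1 : Ok2 par f1 Box3.unit (selB2 0 C0 4323455642275676159) :=
  Ok2.run hw hf1 ⟨357,19,19,16,13⟩ 58
    (.split 0 (.chk false 0) (.split 0 (.chk false 0) (.split 1 (.split 2 (.split 0 (.chk false 0) (.chk false 0)) (.chk false 0)) (.chk false 0))))
    (by decide +kernel)

theorem p0_2_0 : Ok2 par f2 ((((Box3.unit.l 0).r 2).l 1).l 0) (selB2 1 (selB2 0 (selB2 0 C0 3099604620133629951) 50330879) 5) :=
  Ok2.run hw hf2 ⟨331,19,19,13,13⟩ 58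
    (.chk false 0)
    (by decide +kernel)

theorem p0_2_1 : Ok2 par f2 ((((Box3.unit.l 0).r 2).l 1).l 0) (selB2 0 (selB2 0 (selB2 0 C0 3099604620133629951) 50330879) 5) :=
  Ok2.run hw hf2 ⟨466,19,19,13,13⟩ 58
    (.split 1 (.split 2 (.chk false 0) (.split 1 (.split 2 (.chk false 0) (.split 0 (.chk false 0) (.split 1 (.split 2 (.chk false 0) (.split 0 (.chk false 0) (.chk false 0))) (.chk false 0)))) (.chk false 0))) (.chk false 0))
    (by decide +kernel)

theorem p0_2_2 : Ok2 par f2 ((((Box3.unit.l 0).r 2).l 1).r 0) (selB2 0 (selB2 0 C0 3099604620133629951) 50330879) :=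
  Ok2.run hw hf2 ⟨398,19,19,13,13⟩ 58
    (.part 1 (.chk false 0) (.split 2 (.chk false 0) (.split 0 (.split 1 (.part 1 (.chk false 0) (.split 0 (.chk false 0) (.chk false 0))) (.chk false 0)) (.chk false 0))))
    (by decide +kernel)

theorem p0_2_3 : Ok2 par f2 (((Box3.unit.l 0).r 2).r 1) (selB2 0 (selB2 0 C0 3099604620133629951) 50330879) :=
  Ok2.run hw hf2 ⟨309,19,19,13,13⟩ 58
    (.chk false 0)
    (by decide +kernel)

theorem p0_2_4 : Ok2 par f2 ((Box3.unit.l 0).l 2) (selB2 0 (selB2 0 C0 3099604620133629951) 50330879) :=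
  Ok2.run hw hf2 ⟨280,19,19,13,13⟩ 58
    (.chk false 0)
    (by decide +kernel)

theorem p0_2_5 : Ok2 par f2 (Box3.unit.l 0) (selB2 1 (selB2 0 C0 3099604620133629951) 50330879) :=
  Ok2.run hw hf2 ⟨263,19,19,13,13⟩ 58
    (.chk false 2048)
    (by decide +kernel)

theorem p0_2_6 : Ok2 par f2 (((((Box3.unit.r 0).l 1).r 1).l 2).r 1) (selB2 1 (selB2 0 (selB2 0 (selB2 0 C0 3099604620133629951) 16777984) 3931903) 4) :=
  Ok2.run hw hf2 ⟨337,19,19,13,13⟩ 58
    (.chk false 0)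
    (by decide +kernel)

theorem p0_2_7 : Ok2 par f2 (((((Box3.unit.r 0).l 1).r 1).l 2).r 1) (selB2 0 (selB2 0 (selB2 0 (selB2 0 C0 3099604620133629951) 16777984) 3931903) 4) :=
  Ok2.run hw hf2 ⟨444,19,19,13,13⟩ 58
    (.split 2 (.split 0 (.chk false 0) (.split 1 (.part 2 (.chk false 0) (.split 2 (.split 0 (.chk false 0) (.split 1 (.chk false 0) (.chk false 0))) (.chk false 0))) (.chk false 0))) (.chk false 0))
    (by decide +kernel)

theorem p0_2_8 : Ok2 par f2 (((((Box3.unit.r 0).l 1).r 1).l 2).l 1) (selB2 0 (selB2 0 (selB2 0 C0 3099604620133629951) 16777984) 3931903) :=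
  Ok2.run hw hf2 ⟨429,19,19,13,13⟩ 58
    (.part 3 (.chk false 0) (.split 2 (.split 1 (.split 0 (.chk false 0) (.split 2 (.split 1 (.chk false 0) (.chk false 0)) (.chk false 0))) (.chk false 0)) (.chk false 0)))
    (by decide +kernel)

theorem p0_2_9 : Ok2 par f2 ((((Box3.unit.r 0).l 1).r 1).r 2) (selB2 1 (selB2 0 (selB2 0 (selB2 0 C0 3099604620133629951) 16777984) 3931903) 3) :=
  Ok2.run hw hf2 ⟨322,19,19,13,13⟩ 58
    (.chk false 0)
    (by decide +kernel)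

theorem p0_2_10 : Ok2 par f2 ((((Box3.unit.r 0).l 1).r 1).r 2) (selB2 0 (selB2 0 (selB2 0 (selB2 0 C0 3099604620133629951) 16777984) 3931903) 3) :=
  Ok2.run hw hf2 ⟨465,19,19,13,13⟩ 58
    (.split 1 (.chk false 0) (.split 0 (.chk false 0) (.split 1 (.chk false 0) (.split 0 (.chk false 0) (.split 1 (.split 2 (.chk false 0) (.split 0 (.chk false 0) (.split 1 (.chk false 0) (.chk false 0)))) (.chk false 0))))))
    (by decide +kernel)

theorem p0_2_11 : Ok2 par f2 (((Box3.unit.r 0).l 1).l 1) (selB2 0 (selB2 0 (selB2 0 C0 3099604620133629951) 16777984) 3931903) :=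
  Ok2.run hw hf2 ⟨313,19,19,13,13⟩ 58
    (.chk false 0)
    (by decide +kernel)

theorem p0_2_12 : Ok2 par f2 ((Box3.unit.r 0).l 1) (selB2 1 (selB2 0 (selB2 0 C0 3099604620133629951) 16777984) 3931903) :=
  Ok2.run hw hf2 ⟨291,19,19,13,13⟩ 58
    (.chk false 2048)
    (by decide +kernel)

theorem p0_2_13 : Ok2 par f2 (((((((((((Box3.unit.r 0).r 1).r 0).l 1).r 1).r 0).r 1).r 0).r 0).r 1).l 2) (selB2 0 (selB2 0 (selB2 0 (selB2 0 (selB2 0 C0 3099604620133629951) 16777984) 4325377) 524149) 12) :=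
  Ok2.run hw hf2 ⟨495,19,19,13,13⟩ 58
    (.split 0 (.chk false 1024) (.split 1 (.chk false 1024) (.chk false 1024)))
    (by decide +kernel)

theorem p0_2_14 : Ok2 par f2 (((((((((((Box3.unit.r 0).r 1).r 0).l 1).r 1).r 0).r 1).r 0).r 0).r 1).r 2) (selB2 0 (selB2 0 (selB2 0 (selB2 0 (selB2 0 C0 3099604620133629951) 16777984) 4325377) 524149) 12) :=
  Ok2.run hw hf2 ⟨531,19,19,13,13⟩ 58
    (.split 0 (.chk false 1024) (.split 1 (.part 2 (.chk false 1024) (.split 0 (.chk false 512) (.split 1 (.chk false 512) (.chk false 512)))) (.chk false 1024)))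
    (by decide +kernel)

theorem p0_2_15 : Ok2 par f2 ((((((((((Box3.unit.r 0).r 1).r 0).l 1).r 1).r 0).r 1).r 0).r 0).l 1) (selB2 0 (selB2 0 (selB2 0 (selB2 0 (selB2 0 C0 3099604620133629951) 16777984) 4325377) 524149) 12) :=
  Ok2.run hw hf2 ⟨441,19,19,13,13⟩ 58
    (.chk false 1024)
    (by decide +kernel)

theorem p0_2_16 : Ok2 par f2 (((((((((Box3.unit.r 0).r 1).r 0).l 1).r 1).r 0).r 1).r 0).l 0) (selB2 0 (selB2 0 (selB2 0 (selB2 0 (selB2 0 C0 3099604620133629951) 16777984) 4325377) 524149) 12) :=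
  Ok2.run hw hf2 ⟨422,19,19,13,13⟩ 58
    (.chk false 1024)
    (by decide +kernel)

theorem p0_2_17 : Ok2 par f2 ((((((((Box3.unit.r 0).r 1).r 0).l 1).r 1).r 0).r 1).l 0) (selB2 0 (selB2 0 (selB2 0 (selB2 0 (selB2 0 C0 3099604620133629951) 16777984) 4325377) 524149) 12) :=
  Ok2.run hw hf2 ⟨403,19,19,13,13⟩ 58
    (.chk false 1024)
    (by decide +kernel)

theorem p0_2_18 : Ok2 par f2 (((((((Box3.unit.r 0).r 1).r 0).l 1).r 1).r 0).r 1) (selB2 1 (selB2 0 (selB2 0 (selB2 0 (selB2 0 C0 3099604620133629951) 16777984) 4325377) 524149) 12) :=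
  Ok2.run hw hf2 ⟨386,19,19,13,13⟩ 58
    (.chk false 0)
    (by decide +kernel)

theorem p0_2_19 : Ok2 par f2 (((((((Box3.unit.r 0).r 1).r 0).l 1).r 1).r 0).l 1) (selB2 0 (selB2 0 (selB2 0 (selB2 0 C0 3099604620133629951) 16777984) 4325377) 524149) :=
  Ok2.run hw hf2 ⟨482,19,19,13,13⟩ 58
    (.part 11 (.chk false 1024) (.split 2 (.chk false 0) (.split 2 (.chk false 0) (.split 1 (.split 0 (.chk false 0) (.split 2 (.chk false 0) (.split 1 (.chk false 0) (.chk false 0)))) (.chk false 0)))))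
    (by decide +kernel)

theorem p0_2_20 : Ok2 par f2 ((((((Box3.unit.r 0).r 1).r 0).l 1).r 1).l 0) (selB2 0 (selB2 0 (selB2 0 (selB2 0 C0 3099604620133629951) 16777984) 4325377) 524149) :=
  Ok2.run hw hf2 ⟨363,19,19,13,13⟩ 58
    (.chk false 1024)
    (by decide +kernel)

theorem p0_2_21 : Ok2 par f2 (((((Box3.unit.r 0).r 1).r 0).l 1).l 1) (selB2 0 (selB2 0 (selB2 0 (selB2 0 C0 3099604620133629951) 16777984) 4325377) 524149) :=
  Ok2.run hw hf2 ⟨342,19,19,13,13⟩ 58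
    (.chk false 1024)
    (by decide +kernel)

theorem p0_2_22 : Ok2 par f2 ((((Box3.unit.r 0).r 1).r 0).l 1) (selB2 1 (selB2 0 (selB2 0 (selB2 0 C0 3099604620133629951) 16777984) 4325377) 524149) :=
  Ok2.run hw hf2 ⟨327,19,19,13,13⟩ 58
    (.chk false 2048)
    (by decide +kernel)

theorem p0_2_23 : Ok2 par f2 ((((((((Box3.unit.r 0).r 1).r 0).r 1).r 0).l 1).r 0).r 1) (selB2 1 (selB2 0 (selB2 0 (selB2 0 (selB2 0 (selB2 0 C0 3099604620133629951) 16777984) 4325377) 395) 16443) 367) :=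
  Ok2.run hw hf2 ⟨409,19,19,13,13⟩ 58
    (.chk false 1448)
    (by decide +kernel)

theorem p0_2_24 : Ok2 par f2 ((((((((Box3.unit.r 0).r 1).r 0).r 1).r 0).l 1).r 0).r 1) (selB2 0 (selB2 0 (selB2 0 (selB2 0 (selB2 0 (selB2 0 C0 3099604620133629951) 16777984) 4325377) 395) 16443) 367) :=
  Ok2.run hw hf2 ⟨500,19,19,13,13⟩ 58
    (.split 0 (.chk false 0) (.split 1 (.chk false 0) (.part 2 (.chk false 0) (.split 2 (.split 0 (.chk false 0) (.split 1 (.chk false 0) (.chk false 0))) (.chk false 0)))))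
    (by decide +kernel)

theorem p0_2_25 : Ok2 par f2 ((((((((Box3.unit.r 0).r 1).r 0).r 1).r 0).l 1).r 0).l 1) (selB2 0 (selB2 0 (selB2 0 (selB2 0 (selB2 0 C0 3099604620133629951) 16777984) 4325377) 395) 16443) :=
  Ok2.run hw hf2 ⟨407,19,19,13,13⟩ 58
    (.chk false 1448)
    (by decide +kernel)

theorem p0_2_26 : Ok2 par f2 (((((((Box3.unit.r 0).r 1).r 0).r 1).r 0).l 1).l 0) (selB2 0 (selB2 0 (selB2 0 (selB2 0 (selB2 0 C0 3099604620133629951) 16777984) 4325377) 395) 16443) :=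
  Ok2.run hw hf2 ⟨388,19,19,13,13⟩ 58
    (.chk false 1448)
    (by decide +kernel)

theorem p0_2_27 : Ok2 par f2 ((((((Box3.unit.r 0).r 1).r 0).r 1).r 0).l 1) (selB2 1 (selB2 0 (selB2 0 (selB2 0 (selB2 0 C0 3099604620133629951) 16777984) 4325377) 395) 16443) :=
  Ok2.run hw hf2 ⟨371,19,19,13,13⟩ 58
    (.chk false 2048)
    (by decide +kernel)


end Crest.Agent.R163.R1
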